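import Mathlib
import Vale.Agent.Lib.P162.Defs

namespace Vale.Agent.Lib.P162.H93

open Finset BigOperators

/-! ### generic facts on nonnegative / stochastic matrices -/

theorem H93_pow_nonneg {S : Type*} [Fintype S] [DecidableEq S] (A : Matrix S S ℝ)
    (hA : ∀ z y, 0 ≤ A z y) : ∀ (s : ℕ) (z y : S), 0 ≤ (A ^ s) z y := by
  intro s
  induction s with
  | zero =>
    intro z y
    rw [pow_zero, Matrix.one_apply]
    split_ifs <;> norm_num
  | succ s ih =>
    intro z y
    rw [pow_succ, Matrix.mul_apply]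
    exact Finset.sum_nonneg fun x _ => mul_nonneg (ih z x) (hA x y)

theorem H93_pow_rowsum {S : Type*} [Fintype S] [DecidableEq S] (A : Matrix S S ℝ)
    (hA1 : ∀ z, ∑ y, A z y = 1) : ∀ (s : ℕ) (z : S), ∑ y, (A ^ s) z y = 1 := by
  intro s
  induction s with
  | zero =>
    intro z
    simp [Matrix.one_apply]
  | succ s ih =>
    intro z
    simp only [pow_succ, Matrix.mul_apply]
    rw [Finset.sum_comm]
    simp only [← Finset.mul_sum, hA1, mul_one]
    exact ih z

/-- if an entry of `A ^ (s+1)` is nonzero, the last step goes through a nonzero entry -/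
theorem H93_pow_succ_ne_zero {S : Type*} [Fintype S] [DecidableEq S] (A : Matrix S S ℝ)
    (s : ℕ) (z y : S) (hne : (A ^ (s + 1)) z y ≠ 0) :
    ∃ x, (A ^ s) z x ≠ 0 ∧ A x y ≠ 0 := by
  rw [pow_succ, Matrix.mul_apply] at hne
  by_contra hcon
  have hcon' : ∀ x, (A ^ s) z x ≠ 0 → A x y = 0 := by
    intro x hx
    by_contra hxy
    exact hcon ⟨x, hx, hxy⟩
  apply hne
  apply Finset.sum_eq_zero
  intro x _
  by_cases hx : (A ^ s) z x = 0
  · rw [hx, zero_mul]
  · rw [hcon' x hx, mul_zero]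

/-! ### one shuffle on two cards -/

theorem H93_Kmat_apply (h k : ℕ) [NeZero h] (z y : Fin k → ZMod (2 * h)) :
    Kmat h k z y = stepProb h k z y := rfl

theorem H93_move_eq (h : ℕ) (c : ZMod h → Bool) (p : ZMod (2 * h)) :
    move h c p = 2 * p ∨ move h c p = 2 * p + 1 := by
  unfold move
  split_ifs
  · right; rfl
  · left; simp

theorem H93_step_witness (h k : ℕ) [NeZero h] (z y : Fin k → ZMod (2 * h))
    (hne : stepProb h k z y ≠ 0) : ∃ c : ZMod h → Bool, ∀ j, move h c (z j) = y j := by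
  by_contra hcon
  apply hne
  unfold stepProb
  have : (univ.filter fun c : ZMod h → Bool => ∀ j, move h c (z j) = y j) = ∅ := by
    apply Finset.filter_eq_empty_iff.mpr
    intro c _ hc
    exact hcon ⟨c, hc⟩
  rw [this]
  simp

/-- the difference of the two tracked positions is `± j` with `1 ≤ j < 2 ^ r` -/
def H93_Near (h r : ℕ) (z : Fin 2 → ZMod (2 * h)) : Prop :=
  ∃ j : ℕ, 1 ≤ j ∧ j < 2 ^ r ∧
    (z 1 - z 0 = (j : ZMod (2 * h)) ∨ z 0 - z 1 = (j : ZMod (2 * h)))

theorem H93_near_step (h r : ℕ) (c : ZMod h → Bool) (z y : Fin 2 → ZMod (2 * h))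
    (hy : ∀ j, move h c (z j) = y j) (hz : H93_Near h r z) : H93_Near h (r + 1) y := by
  obtain ⟨j, hj1, hj2, hj⟩ := hz
  have h0 := hy 0
  have h1 := hy 1
  have hpow : 2 ^ (r + 1) = 2 * 2 ^ r := by rw [pow_succ]; ring
  rcases H93_move_eq h c (z 0) with e0 | e0 <;> rcases H93_move_eq h c (z 1) with e1 | e1 <;>
    rcases hj with hj | hj
  · refine ⟨2 * j, by omega, by omega, Or.inl ?_⟩
    rw [← h0, ← h1, e0, e1]; push_cast; linear_combination (2 : ZMod (2 * h)) * hj
  · refine ⟨2 * j, by omega, by omega, Or.inr ?_⟩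
    rw [← h0, ← h1, e0, e1]; push_cast; linear_combination (2 : ZMod (2 * h)) * hj
  · refine ⟨2 * j + 1, by omega, by omega, Or.inl ?_⟩
    rw [← h0, ← h1, e0, e1]; push_cast; linear_combination (2 : ZMod (2 * h)) * hj
  · refine ⟨2 * j - 1, by omega, by omega, Or.inr ?_⟩
    rw [← h0, ← h1, e0, e1, Nat.cast_sub (by omega : 1 ≤ 2 * j)]; push_cast
    linear_combination (2 : ZMod (2 * h)) * hj
  · refine ⟨2 * j - 1, by omega, by omega, Or.inl ?_⟩
    rw [← h0, ← h1, e0, e1, Nat.cast_sub (by omega : 1 ≤ 2 * j)]; push_cast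
    linear_combination (2 : ZMod (2 * h)) * hj
  · refine ⟨2 * j + 1, by omega, by omega, Or.inr ?_⟩
    rw [← h0, ← h1, e0, e1]; push_cast; linear_combination (2 : ZMod (2 * h)) * hj
  · refine ⟨2 * j, by omega, by omega, Or.inl ?_⟩
    rw [← h0, ← h1, e0, e1]; push_cast; linear_combination (2 : ZMod (2 * h)) * hj
  · refine ⟨2 * j, by omega, by omega, Or.inr ?_⟩
    rw [← h0, ← h1, e0, e1]; push_cast; linear_combination (2 : ZMod (2 * h)) * hj

theorem H93_two_h (h : ℕ) : (2 : ZMod (2 * h)) * (h : ZMod (2 * h)) = 0 := by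
  have := ZMod.natCast_self (2 * h)
  push_cast at this
  exact this

theorem H93_near_not_partner (h r : ℕ) [NeZero h] (hr : 2 ^ r ≤ h) (z : Fin 2 → ZMod (2 * h))
    (hz : H93_Near h r z) : ¬ (z 1 = z 0 + (h : ZMod (2 * h))) := by
  intro hp
  obtain ⟨j, hj1, hj2, hj⟩ := hz
  have hpos : 0 < h := NeZero.pos h
  rcases hj with hj | hj
  · have e : ((j : ℕ) : ZMod (2 * h)) = ((h : ℕ) : ZMod (2 * h)) := by
      rw [← hj, hp]; ring
    rw [ZMod.natCast_eq_natCast_iff'] at e
    rw [Nat.mod_eq_of_lt (by omega), Nat.mod_eq_of_lt (by omega)] at e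
    omega
  · have e : ((j + h : ℕ) : ZMod (2 * h)) = 0 := by
      push_cast
      rw [← hj, hp]
      ring
    rw [ZMod.natCast_eq_zero_iff] at e
    have := Nat.le_of_dvd (by omega) e
    omega

theorem H93_partner_bits (h : ℕ) [NeZero h] (c : ZMod h → Bool) (p : ZMod (2 * h)) :
    (xor (decide (h ≤ (p + (h : ZMod (2 * h))).val)) (c (ZMod.cast (p + (h : ZMod (2 * h))))))
      = !(xor (decide (h ≤ p.val)) (c (ZMod.cast p))) := by
  have hpos : 0 < h := NeZero.pos h
  have hdvd : h ∣ 2 * h := Dvd.intro_left 2 rfl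
  have hcast : (ZMod.cast (p + (h : ZMod (2 * h))) : ZMod h) = ZMod.cast p := by
    rw [ZMod.cast_add hdvd, ZMod.cast_natCast hdvd, ZMod.natCast_self, add_zero]
  have hval : (p + (h : ZMod (2 * h))).val = (p.val + h) % (2 * h) := by
    rw [ZMod.val_add, ZMod.val_natCast, Nat.mod_eq_of_lt (by omega : h < 2 * h)]
  have hlt : p.val < 2 * h := ZMod.val_lt p
  rw [hcast, hval]
  by_cases hp : h ≤ p.val
  · have e2 : (p.val + h) % (2 * h) = p.val - h := by
      have e : p.val + h = (p.val - h) + 2 * h := by omega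
      rw [e, Nat.add_mod_right, Nat.mod_eq_of_lt (by omega)]
    rw [e2]
    have h1 : ¬ (h ≤ p.val - h) := by omega
    simp [hp, h1]
  · have e2 : (p.val + h) % (2 * h) = p.val + h := Nat.mod_eq_of_lt (by omega)
    rw [e2]
    have h1 : h ≤ p.val + h := by omega
    simp [hp, h1]

theorem H93_partner_step (h : ℕ) [NeZero h] (c : ZMod h → Bool) (z y : Fin 2 → ZMod (2 * h))
    (hy : ∀ j, move h c (z j) = y j) (hz : z 1 = z 0 + (h : ZMod (2 * h))) :
    H93_Near h 1 y := by
  have h0 := hy 0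
  have h1 := hy 1
  have hb := H93_partner_bits h c (z 0)
  rw [hz] at h1
  unfold move at h0 h1
  rw [hb] at h1
  have h2 := H93_two_h h
  refine ⟨1, le_refl 1, by norm_num, ?_⟩
  cases hx : xor (decide (h ≤ (z 0).val)) (c (ZMod.cast (z 0)))
  · rw [hx] at h0 h1
    left
    rw [← h0, ← h1]
    simp only [Bool.not_false, if_true, Bool.false_eq_true, if_false, Nat.cast_one]
    linear_combination h2
  · rw [hx] at h0 h1
    right
    rw [← h0, ← h1]
    simp only [Bool.not_true, if_true, Bool.false_eq_true, if_false, Nat.cast_one]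
    linear_combination -h2

/-- Starting from a partner state, after `i + 1` steps the two cards are at distance
`< 2 ^ (i + 1)` (in particular they are not partners while `2 ^ (i + 1) ≤ h`). -/
theorem H93_partner_avoid (h : ℕ) [NeZero h] (z : Fin 2 → ZMod (2 * h))
    (hz : z 1 = z 0 + (h : ZMod (2 * h))) :
    ∀ (i : ℕ) (y : Fin 2 → ZMod (2 * h)), (Kmat h 2 ^ (i + 1)) z y ≠ 0 →
      H93_Near h (i + 1) y := by
  intro i
  induction i with
  | zero =>
    intro y hy
    rw [zero_add, pow_one, H93_Kmat_apply] at hy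
    obtain ⟨c, hc⟩ := H93_step_witness h 2 z y hy
    exact H93_partner_step h c z y hc hz
  | succ i ih =>
    intro y hy
    obtain ⟨x, hx1, hx2⟩ := H93_pow_succ_ne_zero (Kmat h 2) (i + 1) z y hy
    rw [H93_Kmat_apply] at hx2
    obtain ⟨c, hc⟩ := H93_step_witness h 2 x y hx2
    exact H93_near_step h (i + 1) c x y hc (ih x hx1)

/-- Pool job P162-H1 (exact statement): two cards that are partners now are not partners again
within `r` steps as long as `2 ^ r ≤ h`. -/
theorem partner_gap (h : ℕ) [NeZero h] (r : ℕ) (hr1 : 1 ≤ r) (hr : 2 ^ r ≤ h)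
    (w v : Fin 2 → ZMod (2 * h)) (hw : w 1 = w 0 + (h : ZMod (2 * h)))
    (hv : v 1 = v 0 + (h : ZMod (2 * h))) : (Kmat h 2 ^ r) w v = 0 := by
  by_contra hne
  obtain ⟨i, rfl⟩ : ∃ i, r = i + 1 := ⟨r - 1, by omega⟩
  exact H93_near_not_partner h (i + 1) hr v (H93_partner_avoid h w hw i v hne) hv

end Vale.Agent.Lib.P162.H93
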