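import Mathlib
import Vale.Agent.Lib.P162.Defs
import Vale.Agent.Lib.P162.helper93.Gap

namespace Vale.Agent.Lib.P162.H93

open Finset BigOperators

/-- sum of a matrix product over a set of columns (no `simp` on the concrete kernels) -/
theorem H93_sum_mul {S : Type*} [Fintype S] [DecidableEq S] (A B : Matrix S S ℝ) (P : Finset S)
    (w : S) : ∑ v ∈ P, (A * B) w v = ∑ x, A w x * ∑ v ∈ P, B x v := by
  simp only [Matrix.mul_apply]
  rw [Finset.sum_comm]
  simp only [← Finset.mul_sum]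

/-- the partner states of the two-card chain -/
def H93_Pt (h : ℕ) [NeZero h] : Finset (Fin 2 → ZMod (2 * h)) :=
  univ.filter (fun v : Fin 2 → ZMod (2 * h) => v 1 = v 0 + (h : ZMod (2 * h)))

theorem H93_mem_Pt (h : ℕ) [NeZero h] (v : Fin 2 → ZMod (2 * h)) :
    v ∈ H93_Pt h ↔ v 1 = v 0 + (h : ZMod (2 * h)) := by
  unfold H93_Pt
  simp

theorem H93_Wmat_nonneg (h : ℕ) [NeZero h] (p q : ZMod (2 * h)) : 0 ≤ Wmat h p q := by
  unfold Wmat
  split_ifs <;> norm_num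

theorem H93_Wmat_rowsum (h : ℕ) [NeZero h] (p : ZMod (2 * h)) : ∑ q, Wmat h p q = 1 := by
  unfold Wmat
  rw [Finset.sum_add_distrib, Finset.sum_ite_eq', Finset.sum_ite_eq']
  simp only [Finset.mem_univ, if_true]
  norm_num

theorem H93_Wk_nonneg (h k : ℕ) [NeZero h] (z y : Fin k → ZMod (2 * h)) : 0 ≤ Wk h k z y := by
  unfold Wk
  exact Finset.prod_nonneg fun j _ => H93_Wmat_nonneg h _ _

/-- Claim (ii) of the partner lemma: from an off-diagonal start the probability of being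
partners after `r` steps (`2 ^ r ≤ h`) is at most the corresponding probability for two free
cards. -/
theorem H93_claim (h : ℕ) [NeZero h]
    (hfree : ∀ z y : Fin 2 → ZMod (2 * h), ¬ bad h 2 z → stepProb h 2 z y = Wk h 2 z y)
    (hcast : ∀ u v : ZMod (2 * h),
      (ZMod.cast u : ZMod h) = ZMod.cast v ↔ v = u ∨ v = u + (h : ZMod (2 * h)))
    (hinj : ∀ c : ZMod h → Bool, Function.Injective (move h c)) :
    ∀ (r : ℕ), 2 ^ r ≤ h → ∀ w : Fin 2 → ZMod (2 * h), w 0 ≠ w 1 →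
      ∑ v ∈ H93_Pt h, (Kmat h 2 ^ r) w v ≤ ∑ v ∈ H93_Pt h, (Wk h 2 ^ r) w v := by
  intro r
  induction r with
  | zero =>
    intro _ w _
    rw [pow_zero, pow_zero]
  | succ r ih =>
    intro hr w hw
    have hr' : 2 ^ r ≤ h := le_trans (Nat.pow_le_pow_right (by norm_num) (Nat.le_succ r)) hr
    by_cases hp : w 1 = w 0 + (h : ZMod (2 * h))
    · have hzero : ∑ v ∈ H93_Pt h, (Kmat h 2 ^ (r + 1)) w v = 0 := by
        apply Finset.sum_eq_zero
        intro v hv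
        rw [H93_mem_Pt] at hv
        exact partner_gap h (r + 1) (by omega) hr w v hp hv
      rw [hzero]
      exact Finset.sum_nonneg fun v _ => H93_pow_nonneg (Wk h 2) (H93_Wk_nonneg h 2) (r + 1) w v
    · have hbad : ¬ bad h 2 w := by
        rintro ⟨j, j', hne, hc⟩
        fin_cases j <;> fin_cases j'
        · exact hne rfl
        · rcases (hcast (w 0) (w 1)).mp hc with e | e
          · exact hw e.symm
          · exact hp e
        · rcases (hcast (w 0) (w 1)).mp hc.symm with e | e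
          · exact hw e.symm
          · exact hp e
        · exact hne rfl
      have hrow : ∀ x, Kmat h 2 w x = Wk h 2 w x := fun x => hfree w x hbad
      have e1 : ∑ v ∈ H93_Pt h, (Kmat h 2 ^ (r + 1)) w v
          = ∑ x, Kmat h 2 w x * ∑ v ∈ H93_Pt h, (Kmat h 2 ^ r) x v := by
        rw [pow_succ']
        exact H93_sum_mul (Kmat h 2) (Kmat h 2 ^ r) (H93_Pt h) w
      have e2 : ∑ v ∈ H93_Pt h, (Wk h 2 ^ (r + 1)) w v
          = ∑ x, Wk h 2 w x * ∑ v ∈ H93_Pt h, (Wk h 2 ^ r) x v := by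
        rw [pow_succ']
        exact H93_sum_mul (Wk h 2) (Wk h 2 ^ r) (H93_Pt h) w
      rw [e1, e2]
      apply Finset.sum_le_sum
      intro x _
      rw [hrow x]
      by_cases hx0 : Wk h 2 w x = 0
      · rw [hx0, zero_mul, zero_mul]
      · apply mul_le_mul_of_nonneg_left _ (H93_Wk_nonneg h 2 w x)
        apply ih hr' x
        have hx1 : stepProb h 2 w x ≠ 0 := by
          rw [← H93_Kmat_apply, hrow x]; exact hx0
        obtain ⟨c, hc⟩ := H93_step_witness h 2 w x hx1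
        intro e
        apply hw
        apply hinj c
        rw [hc 0, hc 1, e]

/-- Claim (iii): two free cards are partners after `r` steps with probability at most
`2 ^ (-r)` when `2 ^ r ≤ 2 h`. -/
theorem H93_free_partner (h : ℕ) [NeZero h]
    (hWle : ∀ m : ℕ, 2 ^ m ≤ 2 * h → ∀ p y : ZMod (2 * h), (Wmat h ^ m) p y ≤ 1 / 2 ^ m)
    (hprod : ∀ (m : ℕ) (z y : Fin 2 → ZMod (2 * h)),
      (Wk h 2 ^ m) z y = ∏ j, (Wmat h ^ m) (z j) (y j))
    (r : ℕ) (hr : 2 ^ r ≤ 2 * h) (w : Fin 2 → ZMod (2 * h)) :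
    ∑ v ∈ H93_Pt h, (Wk h 2 ^ r) w v ≤ 1 / 2 ^ r := by
  have hnn := H93_pow_nonneg (Wmat h) (H93_Wmat_nonneg h) r
  have hsum := H93_pow_rowsum (Wmat h) (H93_Wmat_rowsum h) r (w 0)
  have hinj : ∀ x ∈ H93_Pt h, ∀ y ∈ H93_Pt h,
      (fun v : Fin 2 → ZMod (2 * h) => v 0) x = (fun v : Fin 2 → ZMod (2 * h) => v 0) y →
        x = y := by
    intro x hx y hy hxy
    rw [H93_mem_Pt] at hx hy
    have h0 : x 0 = y 0 := hxy
    funext j
    fin_cases j
    · exact h0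
    · show x 1 = y 1
      rw [hx, hy, h0]
  have himg := Finset.sum_image (f := fun u : ZMod (2 * h) => (Wmat h ^ r) (w 0) u) hinj
  calc ∑ v ∈ H93_Pt h, (Wk h 2 ^ r) w v
      ≤ ∑ v ∈ H93_Pt h, (Wmat h ^ r) (w 0) (v 0) * (1 / 2 ^ r) := by
        apply Finset.sum_le_sum
        intro v _
        rw [hprod r w v, Fin.prod_univ_two]
        exact mul_le_mul_of_nonneg_left (hWle r hr _ _) (hnn _ _)
    _ = (∑ v ∈ H93_Pt h, (Wmat h ^ r) (w 0) (v 0)) * (1 / 2 ^ r) := by rw [Finset.sum_mul]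
    _ ≤ 1 * (1 / 2 ^ r) := by
        apply mul_le_mul_of_nonneg_right _ (by positivity)
        rw [← hsum, ← himg]
        exact Finset.sum_le_sum_of_subset_of_nonneg (Finset.subset_univ _)
          (fun u _ _ => hnn _ _)
    _ = 1 / 2 ^ r := one_mul _

/-- Skeleton job H (`pair_partner`) with the facts of the other pool jobs as hypotheses:
`hWle` = `Wmat_pow_le` (job D), `hprod` = `prodKernel_pow` for `k = 2` and `W = Wmat h` (job C),
`hfree` = `stepProb_free` for `k = 2` (job F), `hcast` = `cast_eq_iff`, `hinj` = `move_injective`,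
`hnn` = `stepProb_nonneg`, `hsum` = `stepProb_sum` for `k = 2` (job E). -/
theorem pair_partner_of (h : ℕ) [NeZero h]
    (hWle : ∀ m : ℕ, 2 ^ m ≤ 2 * h → ∀ p y : ZMod (2 * h), (Wmat h ^ m) p y ≤ 1 / 2 ^ m)
    (hprod : ∀ (m : ℕ) (z y : Fin 2 → ZMod (2 * h)),
      (Wk h 2 ^ m) z y = ∏ j, (Wmat h ^ m) (z j) (y j))
    (hfree : ∀ z y : Fin 2 → ZMod (2 * h), ¬ bad h 2 z → stepProb h 2 z y = Wk h 2 z y)
    (hcast : ∀ u v : ZMod (2 * h),
      (ZMod.cast u : ZMod h) = ZMod.cast v ↔ v = u ∨ v = u + (h : ZMod (2 * h)))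
    (hinj : ∀ c : ZMod h → Bool, Function.Injective (move h c))
    (hnn : ∀ z y : Fin 2 → ZMod (2 * h), 0 ≤ stepProb h 2 z y)
    (hsum : ∀ z : Fin 2 → ZMod (2 * h), ∑ y, stepProb h 2 z y = 1)
    (w0 : Fin 2 → ZMod (2 * h)) (hw : w0 0 ≠ w0 1)
    (m s : ℕ) (hm : 2 ^ m ≤ h) (hs : m ≤ s) :
    ∑ w ∈ univ.filter (fun w : Fin 2 → ZMod (2 * h) => w 1 = w 0 + (h : ZMod (2 * h))),
        (Kmat h 2 ^ s) w0 w ≤ 1 / 2 ^ m := by
  have hKnn : ∀ z y, 0 ≤ Kmat h 2 z y := fun z y => hnn z y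
  have hK1 : ∀ z, ∑ y, Kmat h 2 z y = 1 := fun z => hsum z
  have hsupp : ∀ (t : ℕ) (x : Fin 2 → ZMod (2 * h)), (Kmat h 2 ^ t) w0 x ≠ 0 → x 0 ≠ x 1 := by
    intro t
    induction t with
    | zero =>
      intro x hx
      rw [pow_zero, Matrix.one_apply] at hx
      by_cases e : w0 = x
      · rw [← e]; exact hw
      · rw [if_neg e] at hx; exact absurd rfl hx
    | succ t ih =>
      intro x hx
      obtain ⟨y, hy1, hy2⟩ := H93_pow_succ_ne_zero (Kmat h 2) t w0 x hx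
      rw [H93_Kmat_apply] at hy2
      obtain ⟨c, hc⟩ := H93_step_witness h 2 y x hy2
      intro e
      apply ih y hy1
      apply hinj c
      rw [hc 0, hc 1, e]
  obtain ⟨d, rfl⟩ : ∃ d, s = d + m := ⟨s - m, by omega⟩
  have e1 : ∑ w ∈ H93_Pt h, (Kmat h 2 ^ (d + m)) w0 w
      = ∑ x, (Kmat h 2 ^ d) w0 x * ∑ v ∈ H93_Pt h, (Kmat h 2 ^ m) x v := by
    rw [pow_add]
    exact H93_sum_mul (Kmat h 2 ^ d) (Kmat h 2 ^ m) (H93_Pt h) w0
  show ∑ w ∈ H93_Pt h, (Kmat h 2 ^ (d + m)) w0 w ≤ 1 / 2 ^ m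
  rw [e1]
  calc ∑ x, (Kmat h 2 ^ d) w0 x * ∑ v ∈ H93_Pt h, (Kmat h 2 ^ m) x v
      ≤ ∑ x, (Kmat h 2 ^ d) w0 x * (1 / 2 ^ m) := by
        apply Finset.sum_le_sum
        intro x _
        by_cases hx : (Kmat h 2 ^ d) w0 x = 0
        · rw [hx, zero_mul, zero_mul]
        · apply mul_le_mul_of_nonneg_left _ (H93_pow_nonneg _ hKnn d w0 x)
          exact le_trans (H93_claim h hfree hcast hinj m hm x (hsupp d x hx))
            (H93_free_partner h hWle hprod m (by omega) x)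
    _ = 1 / 2 ^ m := by rw [← Finset.sum_mul, H93_pow_rowsum _ hK1 d w0, one_mul]

end Vale.Agent.Lib.P162.H93
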