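import Mathlib
import Vale.Agent.Lib.P162.Defs
import Vale.Agent.Lib.P162.helper93.PairPartner
import Vale.Agent.Lib.P162.helper22.WmatPow
import Vale.Agent.Lib.P162.helper77.CountClose
import Vale.Agent.Lib.P162.helper43.ProdKernelPow
import Vale.Agent.Lib.P162.helper36.MoveInj
import Vale.Agent.Lib.P162.helper95.KmatBasic
import Vale.Agent.Lib.P162.helper63.StepFree

namespace Vale.Agent.Lib.P162.H93

open Finset BigOperators

/-- Skeleton statement `Wmat_pow_le` (job D), from `Wmat_pow` (helper22) and `count_le_one`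
(helper77). -/
theorem Wmat_pow_le (h : ℕ) [NeZero h] (m : ℕ) (hm : 2 ^ m ≤ 2 * h) (p y : ZMod (2 * h)) :
    (Wmat h ^ m) p y ≤ 1 / 2 ^ m := by
  rw [H22.Wmat_pow]
  have hc := H77.count_le_one h m hm ((2 : ZMod (2 * h)) ^ m * p) y
  have hc' : (((range (2 ^ m)).filter
      (fun u : ℕ => (2 : ZMod (2 * h)) ^ m * p + (u : ZMod (2 * h)) = y)).card : ℝ) ≤ 1 := by
    exact_mod_cast hc
  gcongr

/-- Skeleton job H, exact statement: two distinct cards are partners at time `s ≥ m` with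
probability at most `2 ^ (-m)` when `2 ^ m ≤ h`. -/
theorem pair_partner (h : ℕ) [NeZero h] (w0 : Fin 2 → ZMod (2 * h)) (hw : w0 0 ≠ w0 1)
    (m s : ℕ) (hm : 2 ^ m ≤ h) (hs : m ≤ s) :
    ∑ w ∈ univ.filter (fun w : Fin 2 → ZMod (2 * h) => w 1 = w 0 + (h : ZMod (2 * h))),
        (Kmat h 2 ^ s) w0 w ≤ 1 / 2 ^ m :=
  pair_partner_of h (Wmat_pow_le h) (fun m z y => H43.Wk_pow h 2 m z y)
    (fun z y hz => H63.stepProb_free h 2 z y hz) (H36.cast_eq_iff h) (H36.move_injective h)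
    (H95.stepProb_nonneg h 2) (H95.stepProb_sum h 2) w0 hw m s hm hs

end Vale.Agent.Lib.P162.H93
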