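import Mathlib
import Vale.Agent.Lib.P162.Defs
import Vale.Agent.Lib.P162.helper93.PairPartnerFinal
import Vale.Agent.Lib.P162.helper19.TvCompare
import Vale.Agent.Lib.P162.helper23.ProdTv
import Vale.Agent.Lib.P162.helper5.LumpPair
import Vale.Agent.Lib.P162.helper24.UnifTv

namespace Vale.Agent.Lib.P162.H93

open Finset BigOperators

/-- Skeleton statement `Wmat_pow_close` (job D). -/
theorem Wmat_pow_close (h : ℕ) [NeZero h] (m : ℕ) (p y : ZMod (2 * h)) :
    |(Wmat h ^ m) p y - 1 / (2 * h : ℝ)| ≤ 1 / 2 ^ m := by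
  rw [H22.Wmat_pow]
  exact H77.count_close h m ((2 : ZMod (2 * h)) ^ m * p) y

theorem H93_Wk_rowsum (h k : ℕ) [NeZero h] (z : Fin k → ZMod (2 * h)) :
    ∑ y, Wk h k z y = 1 := by
  unfold Wk
  have e := Finset.prod_univ_sum (fun _ : Fin k => (univ : Finset (ZMod (2 * h))))
    (fun j q => Wmat h (z j) q)
  rw [Fintype.piFinset_univ] at e
  rw [← e]
  simp [H93_Wmat_rowsum]

/-- the partner events of the cards `j`, `j'` of the `k`-card chain are those of the two-card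
chain -/
theorem H93_pair_sum (h k : ℕ) [NeZero h] (x : Fin k → ZMod (2 * h)) (j j' : Fin k)
    (hjj : j ≠ j') (s : ℕ) :
    ∑ z ∈ univ.filter (fun z : Fin k → ZMod (2 * h) => z j' = z j + (h : ZMod (2 * h))),
        (Kmat h k ^ s) x z
      = ∑ w ∈ univ.filter (fun w : Fin 2 → ZMod (2 * h) => w 1 = w 0 + (h : ZMod (2 * h))),
        (Kmat h 2 ^ s) ![x j, x j'] w := by
  classical
  have hmaps : ∀ z ∈ univ.filter
      (fun z : Fin k → ZMod (2 * h) => z j' = z j + (h : ZMod (2 * h))),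
      (![z j, z j'] : Fin 2 → ZMod (2 * h)) ∈ univ.filter
        (fun w : Fin 2 → ZMod (2 * h) => w 1 = w 0 + (h : ZMod (2 * h))) := by
    intro z hz
    rw [Finset.mem_filter] at hz
    rw [Finset.mem_filter]
    exact ⟨Finset.mem_univ _, by simpa using hz.2⟩
  rw [← Finset.sum_fiberwise_of_maps_to hmaps]
  apply Finset.sum_congr rfl
  intro w hw
  rw [Finset.mem_filter] at hw
  rw [← H5.lump_pair h k x j j' hjj s w]
  apply Finset.sum_congr _ (fun _ _ => rfl)
  ext z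
  simp only [Finset.mem_filter, Finset.mem_univ, true_and]
  constructor
  · rintro ⟨_, hg⟩
    have h0 := congrFun hg 0
    have h1 := congrFun hg 1
    simp at h0 h1
    exact ⟨h0, h1⟩
  · rintro ⟨h0, h1⟩
    refine ⟨by rw [h1, h0]; exact hw.2, ?_⟩
    funext i
    fin_cases i
    · simpa using h0
    · simpa using h1

/-- union bound over ordered pairs: the tracked cards are in a bad state (two of them share a
coin) at time `s ≥ m` with probability at most `k ^ 2 / 2 ^ m` when `2 ^ m ≤ h`. -/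
theorem H93_bad_sum_le (h k : ℕ) [NeZero h] [DecidablePred (bad h k)]
    (x : Fin k → ZMod (2 * h)) (hx : Function.Injective x) (m s : ℕ) (hm : 2 ^ m ≤ h)
    (hs : m ≤ s) :
    ∑ z ∈ univ.filter (bad h k), (Kmat h k ^ s) x z ≤ (k : ℝ) ^ 2 * (1 / 2 ^ m) := by
  have hfnn : ∀ z, 0 ≤ (Kmat h k ^ s) x z := fun z => H95.Kmat_pow_nonneg h k s x z
  have hfsupp : ∀ z, (Kmat h k ^ s) x z ≠ 0 → Function.Injective z := fun z hz =>
    H95.Kmat_pow_support h k (H36.move_injective h) x hx s z hz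
  have hterm : ∀ (z : Fin k → ZMod (2 * h)) (p : Fin k × Fin k),
      0 ≤ (if p.1 ≠ p.2 ∧ z p.2 = z p.1 + (h : ZMod (2 * h)) then (Kmat h k ^ s) x z else 0) := by
    intro z p
    split_ifs
    · exact hfnn z
    · exact le_refl 0
  have hpt : ∀ z, bad h k z → (Kmat h k ^ s) x z ≤ ∑ p : Fin k × Fin k,
      (if p.1 ≠ p.2 ∧ z p.2 = z p.1 + (h : ZMod (2 * h)) then (Kmat h k ^ s) x z else 0) := by
    intro z hz
    by_cases h0 : (Kmat h k ^ s) x z = 0
    · rw [h0]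
      exact Finset.sum_nonneg (fun p _ => by split_ifs <;> exact le_refl 0)
    · obtain ⟨j, j', hne, hc⟩ := hz
      have hinjz := hfsupp z h0
      rcases (H36.cast_eq_iff h (z j) (z j')).mp hc with e | e
      · exact absurd (hinjz e) (Ne.symm hne)
      · have hsingle := Finset.single_le_sum
          (f := fun p : Fin k × Fin k =>
            if p.1 ≠ p.2 ∧ z p.2 = z p.1 + (h : ZMod (2 * h)) then (Kmat h k ^ s) x z else 0)
          (fun p _ => hterm z p) (Finset.mem_univ (j, j'))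
        have hval : (if (j, j').1 ≠ (j, j').2 ∧ z (j, j').2 = z (j, j').1 + (h : ZMod (2 * h))
            then (Kmat h k ^ s) x z else 0) = (Kmat h k ^ s) x z := if_pos ⟨hne, e⟩
        rw [hval] at hsingle
        exact hsingle
  have hpair : ∀ p : Fin k × Fin k, ∑ z : Fin k → ZMod (2 * h),
      (if p.1 ≠ p.2 ∧ z p.2 = z p.1 + (h : ZMod (2 * h)) then (Kmat h k ^ s) x z else 0)
        ≤ 1 / 2 ^ m := by
    intro p
    by_cases hne : p.1 = p.2
    · have hz : ∑ z : Fin k → ZMod (2 * h),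
          (if p.1 ≠ p.2 ∧ z p.2 = z p.1 + (h : ZMod (2 * h)) then (Kmat h k ^ s) x z else 0)
            = 0 := by
        apply Finset.sum_eq_zero
        intro z _
        rw [if_neg]
        intro hcon
        exact hcon.1 hne
      rw [hz]
      positivity
    · have e1 : ∑ z : Fin k → ZMod (2 * h),
          (if p.1 ≠ p.2 ∧ z p.2 = z p.1 + (h : ZMod (2 * h)) then (Kmat h k ^ s) x z else 0)
            = ∑ z ∈ univ.filter
                (fun z : Fin k → ZMod (2 * h) => z p.2 = z p.1 + (h : ZMod (2 * h))),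
              (Kmat h k ^ s) x z := by
        rw [Finset.sum_filter]
        apply Finset.sum_congr rfl
        intro z _
        by_cases hz : z p.2 = z p.1 + (h : ZMod (2 * h))
        · rw [if_pos ⟨hne, hz⟩, if_pos hz]
        · rw [if_neg (fun hcon => hz hcon.2), if_neg hz]
      rw [e1, H93_pair_sum h k x p.1 p.2 hne s]
      apply pair_partner h ![x p.1, x p.2] _ m s hm hs
      intro hcon
      apply hne
      apply hx
      simpa using hcon
  calc ∑ z ∈ univ.filter (bad h k), (Kmat h k ^ s) x z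
      ≤ ∑ z ∈ univ.filter (bad h k), ∑ p : Fin k × Fin k,
          (if p.1 ≠ p.2 ∧ z p.2 = z p.1 + (h : ZMod (2 * h)) then (Kmat h k ^ s) x z else 0) :=
        Finset.sum_le_sum (fun z hz => hpt z (Finset.mem_filter.mp hz).2)
    _ ≤ ∑ z : Fin k → ZMod (2 * h), ∑ p : Fin k × Fin k,
          (if p.1 ≠ p.2 ∧ z p.2 = z p.1 + (h : ZMod (2 * h)) then (Kmat h k ^ s) x z else 0) :=
        Finset.sum_le_sum_of_subset_of_nonneg (Finset.filter_subset _ _)
          (fun z _ _ => Finset.sum_nonneg (fun p _ => hterm z p))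
    _ = ∑ p : Fin k × Fin k, ∑ z : Fin k → ZMod (2 * h),
          (if p.1 ≠ p.2 ∧ z p.2 = z p.1 + (h : ZMod (2 * h)) then (Kmat h k ^ s) x z else 0) :=
        Finset.sum_comm
    _ ≤ ∑ _p : Fin k × Fin k, (1 / 2 ^ m : ℝ) := Finset.sum_le_sum (fun p _ => hpair p)
    _ = (k : ℝ) ^ 2 * (1 / 2 ^ m) := by
        rw [Finset.sum_const, Finset.card_univ, Fintype.card_prod, Fintype.card_fin,
          nsmul_eq_mul]
        push_cast
        ring

/-- the free `k`-card chain is close to the uniform law on all `k`-tuples -/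
theorem H93_free_close (h k : ℕ) [NeZero h] (m : ℕ) (z : Fin k → ZMod (2 * h)) :
    ∑ y, |(Wk h k ^ m) z y - (1 / (2 * h : ℝ)) ^ k|
      ≤ (k : ℝ) * ((2 * h : ℝ) * (1 / 2 ^ m)) := by
  have hpos : (0 : ℝ) < 2 * h := by
    have := NeZero.pos h
    positivity
  have hb1 : ∑ _q : ZMod (2 * h), (1 / (2 * h : ℝ)) = 1 := by
    rw [Finset.sum_const, Finset.card_univ, ZMod.card, nsmul_eq_mul]
    push_cast
    have hne : (h : ℝ) ≠ 0 := Nat.cast_ne_zero.mpr (NeZero.ne h)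
    field_simp
  have key := H23.prod_tv k (fun j q => (Wmat h ^ m) (z j) q) (fun _ => 1 / (2 * h : ℝ))
    (fun j q => H93_pow_nonneg (Wmat h) (H93_Wmat_nonneg h) m (z j) q)
    (fun j => H93_pow_rowsum (Wmat h) (H93_Wmat_rowsum h) m (z j))
    (fun _ => by positivity) hb1
  calc ∑ y, |(Wk h k ^ m) z y - (1 / (2 * h : ℝ)) ^ k|
      = ∑ y : Fin k → ZMod (2 * h),
          |∏ j, (Wmat h ^ m) (z j) (y j) - ∏ _j : Fin k, (1 / (2 * h : ℝ))| := by
        apply Finset.sum_congr rfl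
        intro y _
        rw [H43.Wk_pow, Finset.prod_const, Finset.card_univ, Fintype.card_fin]
    _ ≤ ∑ j : Fin k, ∑ q, |(Wmat h ^ m) (z j) q - 1 / (2 * h : ℝ)| := key
    _ ≤ ∑ _j : Fin k, ∑ _q : ZMod (2 * h), (1 / 2 ^ m : ℝ) :=
        Finset.sum_le_sum (fun j _ => Finset.sum_le_sum (fun q _ => Wmat_pow_close h m (z j) q))
    _ = (k : ℝ) * ((2 * h : ℝ) * (1 / 2 ^ m)) := by
        simp only [Finset.sum_const, Finset.card_univ, ZMod.card, Fintype.card_fin,
          nsmul_eq_mul]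
        push_cast
        ring

/-- two-step triangle inequality for absolute values -/
theorem H93_abs_tri (a b c d : ℝ) : |a - d| ≤ |a - b| + |b - c| + |c - d| := by
  have t1 := abs_sub_le a b d
  have t2 := abs_sub_le b c d
  linarith

/-- Skeleton assembly (exact statement): after `3 L` Thorp shuffles, `L = ⌈log₂ (2 h)⌉`, the
joint law of `k` tracked cards is within total variation `9 k² L / (2 h)` of the uniform law on
placements of `k` distinct cards. -/
theorem kcard_mixing (h k : ℕ) [NeZero h] (x : Fin k → ZMod (2 * h))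
    (hx : Function.Injective x) :
    (1 / 2 : ℝ) * ∑ y, |(Kmat h k ^ (3 * Nat.clog 2 (2 * h))) x y - unifInj h k y|
      ≤ 9 * (k : ℝ) ^ 2 * (Nat.clog 2 (2 * h) : ℝ) / (2 * h : ℝ) := by
  classical
  have hpos : 0 < h := NeZero.pos h
  set L := Nat.clog 2 (2 * h) with hL
  have hL1 : 1 ≤ L := Nat.clog_pos (by norm_num) (by omega)
  have hLpow : 2 * h ≤ 2 ^ L := Nat.le_pow_clog (by norm_num) _
  set m0 := Nat.log 2 h with hm0
  have hm0le : 2 ^ m0 ≤ h := Nat.pow_log_le_self 2 (by omega)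
  have hm0lt : h < 2 ^ (m0 + 1) := Nat.lt_pow_succ_log_self (by norm_num) h
  have hm0L : m0 ≤ L := by
    have hlt : 2 ^ m0 < 2 ^ L := by omega
    exact le_of_lt ((Nat.pow_lt_pow_iff_right (by norm_num)).mp hlt)
  set μ : (Fin k → ZMod (2 * h)) → ℝ := fun z => (Kmat h k ^ L) x z with hμ
  have hμnn : ∀ z, 0 ≤ μ z := fun z => H95.Kmat_pow_nonneg h k L x z
  have hμ1 : ∑ z, μ z = 1 := H95.Kmat_pow_sum h k L x
  have hvec : ∀ (M : Matrix (Fin k → ZMod (2 * h)) (Fin k → ZMod (2 * h)) ℝ)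
      (y : Fin k → ZMod (2 * h)), Matrix.vecMul μ M y = ∑ z, μ z * M z y := by
    intro M y
    simp [Matrix.vecMul, dotProduct]
  have hK3 : ∀ y, (Kmat h k ^ (3 * L)) x y = Matrix.vecMul μ (Kmat h k ^ (2 * L)) y := by
    intro y
    rw [hvec, show 3 * L = L + 2 * L by ring, pow_add, Matrix.mul_apply]
  have hKi : ∀ (i : ℕ) (z : Fin k → ZMod (2 * h)),
      Matrix.vecMul μ (Kmat h k ^ i) z = (Kmat h k ^ (L + i)) x z := by
    intro i z
    rw [hvec, pow_add, Matrix.mul_apply]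
  -- comparison with the free chain
  have hT1 : ∑ y, |Matrix.vecMul μ (Kmat h k ^ (2 * L)) y
        - Matrix.vecMul μ (Wk h k ^ (2 * L)) y|
      ≤ 2 * (((2 * L : ℕ) : ℝ) * ((k : ℝ) ^ 2 * (1 / 2 ^ m0))) := by
    have hAB : ∀ z, ¬ bad h k z → Kmat h k z = Wk h k z := by
      intro z hz
      funext y
      exact H63.stepProb_free h k z y hz
    have hcmp := H19.tv_compare (Kmat h k) (Wk h k) (H95.stepProb_nonneg h k)
      (H95.stepProb_sum h k) (H93_Wk_nonneg h k) (H93_Wk_rowsum h k) (bad h k) hAB μ hμnn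
      (2 * L)
    refine le_trans hcmp ?_
    apply mul_le_mul_of_nonneg_left _ (by norm_num)
    calc ∑ i ∈ range (2 * L), ∑ z ∈ univ.filter (bad h k), Matrix.vecMul μ (Kmat h k ^ i) z
        ≤ ∑ _i ∈ range (2 * L), ((k : ℝ) ^ 2 * (1 / 2 ^ m0)) := by
          apply Finset.sum_le_sum
          intro i _
          have hrw : ∑ z ∈ univ.filter (bad h k), Matrix.vecMul μ (Kmat h k ^ i) z
              = ∑ z ∈ univ.filter (bad h k), (Kmat h k ^ (L + i)) x z :=
            Finset.sum_congr rfl (fun z _ => hKi i z)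
          rw [hrw]
          exact H93_bad_sum_le h k x hx m0 (L + i) hm0le (by omega)
      _ = ((2 * L : ℕ) : ℝ) * ((k : ℝ) ^ 2 * (1 / 2 ^ m0)) := by
          rw [Finset.sum_const, Finset.card_range, nsmul_eq_mul]
  -- the free chain is close to uniform
  have hT2 : ∑ y, |Matrix.vecMul μ (Wk h k ^ (2 * L)) y - (1 / (2 * h : ℝ)) ^ k|
      ≤ (k : ℝ) * ((2 * h : ℝ) * (1 / 2 ^ (2 * L))) := by
    have e : ∀ y, Matrix.vecMul μ (Wk h k ^ (2 * L)) y - (1 / (2 * h : ℝ)) ^ k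
        = ∑ z, μ z * ((Wk h k ^ (2 * L)) z y - (1 / (2 * h : ℝ)) ^ k) := by
      intro y
      rw [hvec]
      have hsplit : ∑ z, μ z * ((Wk h k ^ (2 * L)) z y - (1 / (2 * h : ℝ)) ^ k)
          = ∑ z, μ z * (Wk h k ^ (2 * L)) z y - ∑ z, μ z * (1 / (2 * h : ℝ)) ^ k := by
        rw [← Finset.sum_sub_distrib]
        exact Finset.sum_congr rfl (fun z _ => mul_sub _ _ _)
      rw [hsplit, ← Finset.sum_mul, hμ1, one_mul]
    calc ∑ y, |Matrix.vecMul μ (Wk h k ^ (2 * L)) y - (1 / (2 * h : ℝ)) ^ k|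
        ≤ ∑ y, ∑ z, μ z * |(Wk h k ^ (2 * L)) z y - (1 / (2 * h : ℝ)) ^ k| := by
          apply Finset.sum_le_sum
          intro y _
          rw [e y]
          refine le_trans (Finset.abs_sum_le_sum_abs _ _) ?_
          apply Finset.sum_le_sum
          intro z _
          rw [abs_mul, abs_of_nonneg (hμnn z)]
      _ = ∑ z, μ z * ∑ y, |(Wk h k ^ (2 * L)) z y - (1 / (2 * h : ℝ)) ^ k| := by
          rw [Finset.sum_comm]
          exact Finset.sum_congr rfl (fun z _ => (Finset.mul_sum _ _ _).symm)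
      _ ≤ ∑ z, μ z * ((k : ℝ) * ((2 * h : ℝ) * (1 / 2 ^ (2 * L)))) := by
          apply Finset.sum_le_sum
          intro z _
          exact mul_le_mul_of_nonneg_left (H93_free_close h k (2 * L) z) (hμnn z)
      _ = (k : ℝ) * ((2 * h : ℝ) * (1 / 2 ^ (2 * L))) := by
          rw [← Finset.sum_mul, hμ1, one_mul]
  have hT3 := H24.unif_tv h k
  -- triangle inequality
  have htri : ∑ y, |(Kmat h k ^ (3 * L)) x y - unifInj h k y|
      ≤ 2 * (((2 * L : ℕ) : ℝ) * ((k : ℝ) ^ 2 * (1 / 2 ^ m0)))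
        + (k : ℝ) * ((2 * h : ℝ) * (1 / 2 ^ (2 * L)))
        + (k : ℝ) * (k - 1) / (2 * h : ℝ) := by
    calc ∑ y, |(Kmat h k ^ (3 * L)) x y - unifInj h k y|
        ≤ ∑ y, (|Matrix.vecMul μ (Kmat h k ^ (2 * L)) y
              - Matrix.vecMul μ (Wk h k ^ (2 * L)) y|
            + |Matrix.vecMul μ (Wk h k ^ (2 * L)) y - (1 / (2 * h : ℝ)) ^ k|
            + |(1 / (2 * h : ℝ)) ^ k - unifInj h k y|) := by
          apply Finset.sum_le_sum
          intro y _
          rw [hK3 y]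
          exact H93_abs_tri _ _ _ _
      _ = ∑ y, |Matrix.vecMul μ (Kmat h k ^ (2 * L)) y
              - Matrix.vecMul μ (Wk h k ^ (2 * L)) y|
          + ∑ y, |Matrix.vecMul μ (Wk h k ^ (2 * L)) y - (1 / (2 * h : ℝ)) ^ k|
          + ∑ y, |(1 / (2 * h : ℝ)) ^ k - unifInj h k y| := by
          rw [Finset.sum_add_distrib, Finset.sum_add_distrib]
      _ ≤ _ := add_le_add (add_le_add hT1 hT2) hT3
  -- arithmetic
  have hN : (0 : ℝ) < 2 * (h : ℝ) := by
    have : (0 : ℝ) < (h : ℝ) := Nat.cast_pos.mpr hpos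
    linarith
  have hLr : (1 : ℝ) ≤ (L : ℝ) := by exact_mod_cast hL1
  have hkr : (0 : ℝ) ≤ (k : ℝ) := Nat.cast_nonneg k
  have hP : (1 / 2 ^ m0 : ℝ) ≤ 4 * (1 / (2 * (h : ℝ))) := by
    have h1 : (h : ℝ) < 2 * 2 ^ m0 := by
      have : ((h : ℕ) : ℝ) < ((2 ^ (m0 + 1) : ℕ) : ℝ) := Nat.cast_lt.mpr hm0lt
      rw [pow_succ] at this
      push_cast at this
      linarith
    have h2 : (0 : ℝ) < 2 ^ m0 := by positivity
    rw [div_le_iff₀ h2]
    have h3 : 4 * (1 / (2 * (h : ℝ))) * 2 ^ m0 = (2 * 2 ^ m0) / (h : ℝ) := by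
      field_simp
      ring
    rw [h3, le_div_iff₀ (by linarith)]
    linarith
  have hQ : (2 * (h : ℝ)) * (1 / 2 ^ (2 * L)) ≤ 1 / (2 * (h : ℝ)) := by
    have h1 : (2 * (h : ℝ)) ≤ 2 ^ L := by
      have : ((2 * h : ℕ) : ℝ) ≤ ((2 ^ L : ℕ) : ℝ) := Nat.cast_le.mpr hLpow
      push_cast at this
      exact this
    have h2 : (2 : ℝ) ^ (2 * L) = 2 ^ L * 2 ^ L := by rw [two_mul, pow_add]
    rw [h2]
    have h3 : (0 : ℝ) < 2 ^ L := by positivity
    rw [mul_one_div, div_le_div_iff₀ (by positivity) hN]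
    nlinarith [mul_le_mul h1 h1 hN.le h3.le]
  set I : ℝ := 1 / (2 * (h : ℝ)) with hI
  have hIpos : 0 < I := by rw [hI]; positivity
  have hcast : (((2 * L : ℕ) : ℝ)) = 2 * (L : ℝ) := by push_cast; ring
  have hA : 2 * (((2 * L : ℕ) : ℝ) * ((k : ℝ) ^ 2 * (1 / 2 ^ m0)))
      ≤ 2 * ((2 * (L : ℝ)) * ((k : ℝ) ^ 2 * (4 * I))) := by
    rw [hcast]
    have : (k : ℝ) ^ 2 * (1 / 2 ^ m0) ≤ (k : ℝ) ^ 2 * (4 * I) :=
      mul_le_mul_of_nonneg_left hP (sq_nonneg _)
    have hL0 : (0 : ℝ) ≤ 2 * (L : ℝ) := by linarith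
    have := mul_le_mul_of_nonneg_left this hL0
    linarith
  have hB : (k : ℝ) * ((2 * h : ℝ) * (1 / 2 ^ (2 * L))) ≤ (k : ℝ) * I :=
    mul_le_mul_of_nonneg_left hQ hkr
  have hC : (k : ℝ) * (k - 1) / (2 * h : ℝ) = (k : ℝ) * (k - 1) * I := by
    rw [hI]; ring
  have ht : 0 ≤ (k : ℝ) ^ 2 * I := mul_nonneg (sq_nonneg _) hIpos.le
  have hgoal : 9 * (k : ℝ) ^ 2 * (L : ℝ) / (2 * h : ℝ) = 9 * (L : ℝ) * ((k : ℝ) ^ 2 * I) := by
    rw [hI]; ring
  rw [hgoal]
  have hfin : 2 * ((2 * (L : ℝ)) * ((k : ℝ) ^ 2 * (4 * I))) + (k : ℝ) * I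
      + (k : ℝ) * (k - 1) * I = (16 * (L : ℝ) + 1) * ((k : ℝ) ^ 2 * I) := by ring
  have hsum : ∑ y, |(Kmat h k ^ (3 * L)) x y - unifInj h k y|
      ≤ (16 * (L : ℝ) + 1) * ((k : ℝ) ^ 2 * I) := by
    rw [← hfin, ← hC]
    linarith
  nlinarith [mul_nonneg ht (sub_nonneg.mpr hLr)]

end Vale.Agent.Lib.P162.H93
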