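import Mathlib
import Vale.Agent.Lib.P162.Defs
import Vale.Agent.Lib.P162.RDefs
import Vale.Agent.Lib.P162.helper19.TvCompare
import Vale.Agent.Lib.P162.helper23.ProdTv
import Vale.Agent.Lib.P162.helper22.WmatPow
import Vale.Agent.Lib.P162.helper77.CountClose
import Vale.Agent.Lib.P162.helper36.MoveInj
import Vale.Agent.Lib.P162.helper95.KmatBasic

/-!
Thorp shuffle, adding one tracked card (job R7): one block of `3 L` shuffles,
`L = ⌈log₂ (2 h)⌉`, brings the `(j+1)`-card chain within `l1` distance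
`(16 L j + 1 + 2 j) / (2 h)` of its resampled version (`defect`), from any injective start.
`defect_block_of` takes the statements of the jobs R1, R3, R4, R5, R6 as hypotheses.
-/

namespace Vale.Agent.Lib.P162.H93

open Finset BigOperators

/-- pointwise closeness of the free one-card chain to uniform -/
theorem H93r_Wmat_close (h : ℕ) [NeZero h] (m : ℕ) (p y : ZMod (2 * h)) :
    |(Wmat h ^ m) p y - 1 / (2 * h : ℝ)| ≤ 1 / 2 ^ m := by
  rw [H22.Wmat_pow]
  exact H77.count_close h m ((2 : ZMod (2 * h)) ^ m * p) y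

/-- three-step triangle inequality for absolute values -/
theorem H93r_abs_tri (a b c d : ℝ) : |a - d| ≤ |a - b| + |b - c| + |c - d| := by
  have t1 := abs_sub_le a b d
  have t2 := abs_sub_le b c d
  linarith

theorem H93r_vecMul {S : Type*} [Fintype S] (μ : S → ℝ) (M : Matrix S S ℝ) (y : S) :
    Matrix.vecMul μ M y = ∑ u, μ u * M u y := by
  simp [Matrix.vecMul, dotProduct]

theorem H93r_abs_pos (a c ν : ℝ) (hν : 0 ≤ ν) : |a * ν - ν / c| = ν * |a - 1 / c| := by
  rw [show a * ν - ν / c = ν * (a - 1 / c) by ring, abs_mul, abs_of_nonneg hν]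

theorem H93r_abs_neg (a ν : ℝ) (hν : 0 ≤ ν) : |a * ν - 0| = ν * |a - 0| := by
  rw [show a * ν - 0 = ν * (a - 0) by ring, abs_mul, abs_of_nonneg hν]

/-- the arithmetic of the three error terms -/
theorem H93r_arith (h j L m0 : ℕ) (hpos : 0 < h) (hm0lt : h < 2 ^ (m0 + 1))
    (hLpow : 2 * h ≤ 2 ^ L) :
    2 * (((2 * L : ℕ) : ℝ) * ((j : ℝ) / 2 ^ m0)) + (2 * h : ℝ) * (1 / 2 ^ (2 * L))
        + 2 * (j : ℝ) / (2 * h : ℝ)
      ≤ (16 * (L : ℝ) * j + 1 + 2 * j) / (2 * h : ℝ) := by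
  have hN : (0 : ℝ) < 2 * (h : ℝ) := by
    have : (0 : ℝ) < (h : ℝ) := Nat.cast_pos.mpr hpos
    linarith
  have hP : (1 / 2 ^ m0 : ℝ) ≤ 4 * (1 / (2 * (h : ℝ))) := by
    have h1 : (h : ℝ) < 2 * 2 ^ m0 := by
      have : ((h : ℕ) : ℝ) < ((2 ^ (m0 + 1) : ℕ) : ℝ) := Nat.cast_lt.mpr hm0lt
      rw [pow_succ] at this
      push_cast at this
      linarith
    have h2 : (0 : ℝ) < 2 ^ m0 := by positivity
    rw [div_le_iff₀ h2]
    have h3 : 4 * (1 / (2 * (h : ℝ))) * 2 ^ m0 = (2 * 2 ^ m0) / (h : ℝ) := by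
      field_simp
      ring
    rw [h3, le_div_iff₀ (by linarith)]
    linarith
  have hQ : (2 * (h : ℝ)) * (1 / 2 ^ (2 * L)) ≤ 1 / (2 * (h : ℝ)) := by
    have h1 : (2 * (h : ℝ)) ≤ 2 ^ L := by
      have : ((2 * h : ℕ) : ℝ) ≤ ((2 ^ L : ℕ) : ℝ) := Nat.cast_le.mpr hLpow
      push_cast at this
      exact this
    have h2 : (2 : ℝ) ^ (2 * L) = 2 ^ L * 2 ^ L := by rw [two_mul, pow_add]
    rw [h2]
    have h3 : (0 : ℝ) < 2 ^ L := by positivity
    rw [mul_one_div, div_le_div_iff₀ (by positivity) hN]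
    nlinarith [mul_le_mul h1 h1 hN.le h3.le]
  have hIpos : (0 : ℝ) < 1 / (2 * (h : ℝ)) := by positivity
  have hcast : (((2 * L : ℕ) : ℝ)) = 2 * (L : ℝ) := by push_cast; ring
  have hj : (0 : ℝ) ≤ (j : ℝ) := Nat.cast_nonneg j
  have hL0 : (0 : ℝ) ≤ (L : ℝ) := Nat.cast_nonneg L
  have hA : (j : ℝ) / 2 ^ m0 ≤ (j : ℝ) * (4 * (1 / (2 * (h : ℝ)))) := by
    rw [div_eq_mul_one_div]
    exact mul_le_mul_of_nonneg_left hP hj
  have hA2 : 2 * (((2 * L : ℕ) : ℝ) * ((j : ℝ) / 2 ^ m0))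
      ≤ 2 * ((2 * (L : ℝ)) * ((j : ℝ) * (4 * (1 / (2 * (h : ℝ)))))) := by
    rw [hcast]
    have := mul_le_mul_of_nonneg_left hA (by linarith : (0 : ℝ) ≤ 2 * (L : ℝ))
    linarith
  have hC : 2 * (j : ℝ) / (2 * (h : ℝ)) = 2 * (j : ℝ) * (1 / (2 * (h : ℝ))) := by ring
  have hgoal : (16 * (L : ℝ) * j + 1 + 2 * j) / (2 * (h : ℝ))
      = 2 * ((2 * (L : ℝ)) * ((j : ℝ) * (4 * (1 / (2 * (h : ℝ)))))) + 1 / (2 * (h : ℝ))
        + 2 * (j : ℝ) * (1 / (2 * (h : ℝ))) := by ring
  rw [hgoal, hC]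
  linarith

/-- Job R7 with the statements of R1, R3, R4, R5, R6 as hypotheses. -/
theorem defect_block_of (h j : ℕ) [NeZero h]
    (lump_tail : ∀ (s : ℕ) (z : Fin (j + 1) → ZMod (2 * h)) (v : Fin j → ZMod (2 * h)),
      ∑ q : ZMod (2 * h), (Kmat h (j + 1) ^ s) z (Fin.cons q v : Fin (j + 1) → ZMod (2 * h))
        = (Kmat h j ^ s) (Fin.tail z) v)
    (step_new_free : ∀ (z y : Fin (j + 1) → ZMod (2 * h)), ¬ newBad h j z →
      stepProb h (j + 1) z y = Wmat h (z 0) (y 0) * stepProb h j (Fin.tail z) (Fin.tail y))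
    (Bmat_pow : ∀ (m : ℕ) (z y : Fin (j + 1) → ZMod (2 * h)),
      (Bmat h j ^ m) z y = (Wmat h ^ m) (z 0) (y 0) * (Kmat h j ^ m) (Fin.tail z) (Fin.tail y))
    (Bmat_nonneg : ∀ (z y : Fin (j + 1) → ZMod (2 * h)), 0 ≤ Bmat h j z y)
    (Bmat_sum : ∀ (z : Fin (j + 1) → ZMod (2 * h)), ∑ y, Bmat h j z y = 1)
    (new_bad_prob : ∀ [DecidablePred (newBad h j)] (x : Fin (j + 1) → ZMod (2 * h)),
      Function.Injective x → ∀ (m s : ℕ), 2 ^ m ≤ h → m ≤ s →
      ∑ z ∈ univ.filter (newBad h j), (Kmat h (j + 1) ^ s) x z ≤ (j : ℝ) / 2 ^ m)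
    (off_occ_tv : ∀ (v : Fin j → ZMod (2 * h)), Function.Injective v → j < 2 * h →
      ∑ q : ZMod (2 * h),
          |1 / (2 * h : ℝ) - (if ∀ i, q ≠ v i then 1 / ((2 * h : ℝ) - j) else 0)|
        = 2 * (j : ℝ) / (2 * h : ℝ))
    (z : Fin (j + 1) → ZMod (2 * h)) (hz : Function.Injective z) :
    defect h j (3 * Nat.clog 2 (2 * h)) z
      ≤ (16 * (Nat.clog 2 (2 * h) : ℝ) * j + 1 + 2 * j) / (2 * h : ℝ) := by
  have hpos : 0 < h := NeZero.pos h
  set L := Nat.clog 2 (2 * h) with hL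
  have hLpow : 2 * h ≤ 2 ^ L := Nat.le_pow_clog (by norm_num) _
  set m0 := Nat.log 2 h with hm0
  have hm0le : 2 ^ m0 ≤ h := Nat.pow_log_le_self 2 (by omega)
  have hm0lt : h < 2 ^ (m0 + 1) := Nat.lt_pow_succ_log_self (by norm_num) h
  have hm0L : m0 ≤ L := by
    have hlt : 2 ^ m0 < 2 ^ L := by omega
    exact le_of_lt ((Nat.pow_lt_pow_iff_right (by norm_num)).mp hlt)
  have hj2h : j < 2 * h := by
    have hc := Fintype.card_le_of_injective z hz
    rw [Fintype.card_fin, ZMod.card] at hc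
    omega
  have htail : Function.Injective (Fin.tail z) := hz.comp (Fin.succ_injective j)
  set μ : (Fin (j + 1) → ZMod (2 * h)) → ℝ := fun u => (Kmat h (j + 1) ^ L) z u with hμ
  have hμnn : ∀ u, 0 ≤ μ u := fun u => H95.Kmat_pow_nonneg h (j + 1) L z u
  have hμ1 : ∑ u, μ u = 1 := H95.Kmat_pow_sum h (j + 1) L z
  have hK3 : ∀ y, (Kmat h (j + 1) ^ (3 * L)) z y
      = Matrix.vecMul μ (Kmat h (j + 1) ^ (2 * L)) y := by
    intro y
    rw [H93r_vecMul, show 3 * L = L + 2 * L by ring, pow_add, Matrix.mul_apply]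
  have hKi : ∀ (i : ℕ) (u : Fin (j + 1) → ZMod (2 * h)),
      Matrix.vecMul μ (Kmat h (j + 1) ^ i) u = (Kmat h (j + 1) ^ (L + i)) z u := by
    intro i u
    rw [H93r_vecMul, pow_add, Matrix.mul_apply]
  -- comparison with the product chain
  have hdec : DecidablePred (newBad h j) := fun _ => Classical.propDecidable _
  have hT1 : ∑ y, |Matrix.vecMul μ (Kmat h (j + 1) ^ (2 * L)) y
        - Matrix.vecMul μ (Bmat h j ^ (2 * L)) y|
      ≤ 2 * (((2 * L : ℕ) : ℝ) * ((j : ℝ) / 2 ^ m0)) := by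
    have hAB : ∀ u, ¬ newBad h j u → Kmat h (j + 1) u = Bmat h j u := by
      intro u hu
      funext y
      rw [Kmat_apply_r, Bmat_apply, Kmat_apply_r]
      exact step_new_free u y hu
    have hcmp := H19.tv_compare (Kmat h (j + 1)) (Bmat h j) (H95.stepProb_nonneg h (j + 1))
      (H95.stepProb_sum h (j + 1)) Bmat_nonneg Bmat_sum (newBad h j) hAB μ hμnn (2 * L)
    refine le_trans hcmp ?_
    apply mul_le_mul_of_nonneg_left _ (by norm_num)
    calc ∑ i ∈ range (2 * L), ∑ u ∈ univ.filter (newBad h j),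
          Matrix.vecMul μ (Kmat h (j + 1) ^ i) u
        ≤ ∑ _i ∈ range (2 * L), ((j : ℝ) / 2 ^ m0) := by
          apply Finset.sum_le_sum
          intro i _
          have hrw : ∑ u ∈ univ.filter (newBad h j), Matrix.vecMul μ (Kmat h (j + 1) ^ i) u
              = ∑ u ∈ univ.filter (newBad h j), (Kmat h (j + 1) ^ (L + i)) z u :=
            Finset.sum_congr rfl (fun u _ => hKi i u)
          rw [hrw]
          exact new_bad_prob z hz m0 (L + i) hm0le (by omega)
      _ = ((2 * L : ℕ) : ℝ) * ((j : ℝ) / 2 ^ m0) := by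
          rw [Finset.sum_const, Finset.card_range, nsmul_eq_mul]
  -- the law of the old cards at time `3 L` through the law at time `L`
  have hν : ∀ v : Fin j → ZMod (2 * h), (Kmat h j ^ (3 * L)) (Fin.tail z) v
      = ∑ u, μ u * (Kmat h j ^ (2 * L)) (Fin.tail u) v := by
    intro v
    rw [H23.sum_fin_succ_fun j (fun u => μ u * (Kmat h j ^ (2 * L)) (Fin.tail u) v),
      Finset.sum_comm, show 3 * L = L + 2 * L by ring, pow_add, Matrix.mul_apply]
    apply Finset.sum_congr rfl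
    intro w _
    rw [← lump_tail L z w, Finset.sum_mul]
    apply Finset.sum_congr rfl
    intro q _
    rw [Fin.tail_cons]
  -- the product chain against the old cards with an independent uniform new card
  have hT2 : ∑ y : Fin (j + 1) → ZMod (2 * h), |Matrix.vecMul μ (Bmat h j ^ (2 * L)) y
        - 1 / (2 * h : ℝ) * (Kmat h j ^ (3 * L)) (Fin.tail z) (Fin.tail y)|
      ≤ (2 * h : ℝ) * (1 / 2 ^ (2 * L)) := by
    have e : ∀ y : Fin (j + 1) → ZMod (2 * h), Matrix.vecMul μ (Bmat h j ^ (2 * L)) y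
          - 1 / (2 * h : ℝ) * (Kmat h j ^ (3 * L)) (Fin.tail z) (Fin.tail y)
        = ∑ u, μ u * (((Wmat h ^ (2 * L)) (u 0) (y 0) - 1 / (2 * h : ℝ))
            * (Kmat h j ^ (2 * L)) (Fin.tail u) (Fin.tail y)) := by
      intro y
      rw [H93r_vecMul, hν (Fin.tail y), Finset.mul_sum, ← Finset.sum_sub_distrib]
      apply Finset.sum_congr rfl
      intro u _
      rw [Bmat_pow (2 * L) u y]
      ring
    have hinner : ∀ u : Fin (j + 1) → ZMod (2 * h),
        ∑ y : Fin (j + 1) → ZMod (2 * h),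
          (|(Wmat h ^ (2 * L)) (u 0) (y 0) - 1 / (2 * h : ℝ)|
            * (Kmat h j ^ (2 * L)) (Fin.tail u) (Fin.tail y))
          ≤ (2 * h : ℝ) * (1 / 2 ^ (2 * L)) := by
      intro u
      rw [H23.sum_fin_succ_fun j (fun y => |(Wmat h ^ (2 * L)) (u 0) (y 0) - 1 / (2 * h : ℝ)|
            * (Kmat h j ^ (2 * L)) (Fin.tail u) (Fin.tail y))]
      have hq : ∀ q : ZMod (2 * h), ∑ v : Fin j → ZMod (2 * h),
          (|(Wmat h ^ (2 * L)) (u 0) ((Fin.cons q v : Fin (j + 1) → ZMod (2 * h)) 0)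
              - 1 / (2 * h : ℝ)|
            * (Kmat h j ^ (2 * L)) (Fin.tail u)
                (Fin.tail (Fin.cons q v : Fin (j + 1) → ZMod (2 * h))))
          ≤ 1 / 2 ^ (2 * L) := by
        intro q
        have hv : ∀ v : Fin j → ZMod (2 * h),
            |(Wmat h ^ (2 * L)) (u 0) ((Fin.cons q v : Fin (j + 1) → ZMod (2 * h)) 0)
                - 1 / (2 * h : ℝ)|
              * (Kmat h j ^ (2 * L)) (Fin.tail u)
                  (Fin.tail (Fin.cons q v : Fin (j + 1) → ZMod (2 * h)))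
            = |(Wmat h ^ (2 * L)) (u 0) q - 1 / (2 * h : ℝ)|
              * (Kmat h j ^ (2 * L)) (Fin.tail u) v := by
          intro v
          rw [Fin.cons_zero, Fin.tail_cons]
        refine le_trans (le_of_eq (Finset.sum_congr rfl (fun v _ => hv v))) ?_
        rw [← Finset.mul_sum, H95.Kmat_pow_sum h j (2 * L) (Fin.tail u), mul_one]
        exact H93r_Wmat_close h (2 * L) (u 0) q
      refine le_trans (Finset.sum_le_sum (fun q _ => hq q)) (le_of_eq ?_)
      rw [Finset.sum_const, Finset.card_univ, ZMod.card, nsmul_eq_mul, Nat.cast_mul,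
        Nat.cast_ofNat]
    calc ∑ y : Fin (j + 1) → ZMod (2 * h), |Matrix.vecMul μ (Bmat h j ^ (2 * L)) y
          - 1 / (2 * h : ℝ) * (Kmat h j ^ (3 * L)) (Fin.tail z) (Fin.tail y)|
        ≤ ∑ y : Fin (j + 1) → ZMod (2 * h), ∑ u,
            μ u * (|(Wmat h ^ (2 * L)) (u 0) (y 0) - 1 / (2 * h : ℝ)|
              * (Kmat h j ^ (2 * L)) (Fin.tail u) (Fin.tail y)) := by
          apply Finset.sum_le_sum
          intro y _
          rw [e y]
          refine le_trans (Finset.abs_sum_le_sum_abs _ _) ?_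
          apply Finset.sum_le_sum
          intro u _
          rw [abs_mul, abs_mul, abs_of_nonneg (hμnn u),
            abs_of_nonneg (H95.Kmat_pow_nonneg h j (2 * L) (Fin.tail u) (Fin.tail y))]
      _ = ∑ u, μ u * ∑ y : Fin (j + 1) → ZMod (2 * h),
            (|(Wmat h ^ (2 * L)) (u 0) (y 0) - 1 / (2 * h : ℝ)|
              * (Kmat h j ^ (2 * L)) (Fin.tail u) (Fin.tail y)) := by
          rw [Finset.sum_comm]
          exact Finset.sum_congr rfl (fun u _ => (Finset.mul_sum _ _ _).symm)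
      _ ≤ ∑ u, μ u * ((2 * h : ℝ) * (1 / 2 ^ (2 * L))) := by
          apply Finset.sum_le_sum
          intro u _
          exact mul_le_mul_of_nonneg_left (hinner u) (hμnn u)
      _ = (2 * h : ℝ) * (1 / 2 ^ (2 * L)) := by
          rw [← Finset.sum_mul, hμ1, one_mul]
  -- independent uniform new card against the new card uniform off the old cards
  have hT3 : ∑ y : Fin (j + 1) → ZMod (2 * h),
        |1 / (2 * h : ℝ) * (Kmat h j ^ (3 * L)) (Fin.tail z) (Fin.tail y)
          - resamp h j (3 * L) z y|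
      = 2 * (j : ℝ) / (2 * h : ℝ) := by
    rw [H23.sum_fin_succ_fun j (fun y =>
      |1 / (2 * h : ℝ) * (Kmat h j ^ (3 * L)) (Fin.tail z) (Fin.tail y)
          - resamp h j (3 * L) z y|), Finset.sum_comm]
    have hv : ∀ v : Fin j → ZMod (2 * h), ∑ q : ZMod (2 * h),
        |1 / (2 * h : ℝ) * (Kmat h j ^ (3 * L)) (Fin.tail z)
              (Fin.tail (Fin.cons q v : Fin (j + 1) → ZMod (2 * h)))
          - resamp h j (3 * L) z (Fin.cons q v)|
        = (Kmat h j ^ (3 * L)) (Fin.tail z) v * (2 * (j : ℝ) / (2 * h : ℝ)) := by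
      intro v
      by_cases hv0 : (Kmat h j ^ (3 * L)) (Fin.tail z) v = 0
      · rw [hv0, zero_mul]
        apply Finset.sum_eq_zero
        intro q _
        rw [resamp_apply, Fin.tail_cons, hv0, mul_zero, zero_div, ite_self, sub_zero, abs_zero]
      · have hvinj : Function.Injective v :=
          H95.Kmat_pow_support h j (H36.move_injective h) (Fin.tail z) htail (3 * L) v hv0
        rw [← off_occ_tv v hvinj hj2h, Finset.mul_sum]
        apply Finset.sum_congr rfl
        intro q _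
        rw [resamp_apply, Fin.tail_cons]
        have hcond : (∀ i : Fin j, (Fin.cons q v : Fin (j + 1) → ZMod (2 * h)) 0
            ≠ (Fin.cons q v : Fin (j + 1) → ZMod (2 * h)) i.succ) ↔ (∀ i, q ≠ v i) := by
          constructor
          · intro H i
            have := H i
            rwa [Fin.cons_zero, Fin.cons_succ] at this
          · intro H i
            rw [Fin.cons_zero, Fin.cons_succ]
            exact H i
        by_cases hc : ∀ i, q ≠ v i
        · rw [if_pos (hcond.mpr hc), if_pos hc]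
          exact H93r_abs_pos _ _ _ (H95.Kmat_pow_nonneg h j (3 * L) (Fin.tail z) v)
        · rw [if_neg (fun H => hc (hcond.mp H)), if_neg hc]
          exact H93r_abs_neg _ _ (H95.Kmat_pow_nonneg h j (3 * L) (Fin.tail z) v)
    refine (Finset.sum_congr rfl (fun v _ => hv v)).trans ?_
    rw [← Finset.sum_mul, H95.Kmat_pow_sum h j (3 * L) (Fin.tail z), one_mul]
  -- triangle inequality
  rw [defect_apply]
  have htri : ∑ y, |(Kmat h (j + 1) ^ (3 * L)) z y - resamp h j (3 * L) z y|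
      ≤ 2 * (((2 * L : ℕ) : ℝ) * ((j : ℝ) / 2 ^ m0)) + (2 * h : ℝ) * (1 / 2 ^ (2 * L))
        + 2 * (j : ℝ) / (2 * h : ℝ) := by
    calc ∑ y, |(Kmat h (j + 1) ^ (3 * L)) z y - resamp h j (3 * L) z y|
        ≤ ∑ y : Fin (j + 1) → ZMod (2 * h),
            (|Matrix.vecMul μ (Kmat h (j + 1) ^ (2 * L)) y
                - Matrix.vecMul μ (Bmat h j ^ (2 * L)) y|
            + |Matrix.vecMul μ (Bmat h j ^ (2 * L)) y
                - 1 / (2 * h : ℝ) * (Kmat h j ^ (3 * L)) (Fin.tail z) (Fin.tail y)|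
            + |1 / (2 * h : ℝ) * (Kmat h j ^ (3 * L)) (Fin.tail z) (Fin.tail y)
                - resamp h j (3 * L) z y|) := by
          apply Finset.sum_le_sum
          intro y _
          rw [hK3 y]
          exact H93r_abs_tri _ _ _ _
      _ = ∑ y : Fin (j + 1) → ZMod (2 * h),
            |Matrix.vecMul μ (Kmat h (j + 1) ^ (2 * L)) y
                - Matrix.vecMul μ (Bmat h j ^ (2 * L)) y|
          + ∑ y : Fin (j + 1) → ZMod (2 * h), |Matrix.vecMul μ (Bmat h j ^ (2 * L)) y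
                - 1 / (2 * h : ℝ) * (Kmat h j ^ (3 * L)) (Fin.tail z) (Fin.tail y)|
          + ∑ y : Fin (j + 1) → ZMod (2 * h),
              |1 / (2 * h : ℝ) * (Kmat h j ^ (3 * L)) (Fin.tail z) (Fin.tail y)
                - resamp h j (3 * L) z y| := by
          rw [Finset.sum_add_distrib, Finset.sum_add_distrib]
      _ ≤ _ := add_le_add (add_le_add hT1 hT2) (le_of_eq hT3)
  exact le_trans htri (H93r_arith h j L m0 hpos hm0lt hLpow)

end Vale.Agent.Lib.P162.H93
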