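import Mathlib
import Vale.Agent.Lib.P162.Defs
import Vale.Agent.Lib.P162.RDefs
import Vale.Agent.Lib.P162.helper93.DefectBlock
import Vale.Agent.Lib.P162.helper43.LumpTail
import Vale.Agent.Lib.P162.helper23.StepNewFree
import Vale.Agent.Lib.P162.helper44.BmatPow
import Vale.Agent.Lib.P162.helper7.NewBad
import Vale.Agent.Lib.P162.helper81.OffOccTv

/-!
Thorp shuffle, job R7 (`defect_block`), free of hypotheses: one block of `3 L` shuffles,
`L = ⌈log₂ (2 h)⌉`, brings the `(j+1)`-card chain within `l1` distance
`(16 L j + 1 + 2 j) / (2 h)` of its resampled version, from any injective start.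
-/

namespace Vale.Agent.Lib.P162.H93

open Finset BigOperators

/-- R7: one block of `3 L` shuffles, from any injective start -/
theorem defect_block (h j : ℕ) [NeZero h] (z : Fin (j + 1) → ZMod (2 * h))
    (hz : Function.Injective z) :
    defect h j (3 * Nat.clog 2 (2 * h)) z
      ≤ (16 * (Nat.clog 2 (2 * h) : ℝ) * j + 1 + 2 * j) / (2 * h : ℝ) :=
  defect_block_of h j (fun s z v => H43.lump_tail h j s z v)
    (fun z y hz => H23.step_new_free h j z y hz)
    (fun m z y => H44.Bmat_pow h j m z y) (fun z y => H44.Bmat_nonneg h j z y)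
    (fun z => H44.Bmat_sum h j z)
    (fun x hx m s hm hs => H7.new_bad_prob h j x hx m s hm hs)
    (fun v hv hj => H81.off_occ_tv h j v hv hj) z hz

end Vale.Agent.Lib.P162.H93
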