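import Mathlib
import Vale.Agent.Lib.P162.Defs
import Vale.Agent.Lib.P162.RDefs
import Vale.Agent.Lib.P162.CVDefs
import Vale.Agent.Lib.P162.helper36.MoveInj
import Vale.Agent.Lib.P162.helper95.KmatBasic
import Vale.Agent.Lib.P162.helper43.LumpTail
import Vale.Agent.Lib.P162.helper23.ProdTv
import Vale.Agent.Lib.P162.helper93.Gap

/-!
Thorp shuffle, pool job CV1 (backup copy): summing the one-step kernel over the start position
of the new card, and the two-walker kernel `Qmat` is a stochastic matrix.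
-/

namespace Vale.Agent.Lib.P162.H93CV

open Finset BigOperators

/-- the cardinality of a filter as a sum of indicators, in the reals -/
theorem cv1_card_filter {α : Type*} [Fintype α] (P : α → Prop) [DecidablePred P] :
    ((univ.filter P).card : ℝ) = ∑ c : α, if P c then (1 : ℝ) else 0 := by
  rw [Finset.card_filter, Nat.cast_sum]
  apply Finset.sum_congr rfl
  intro c _
  split_ifs <;> simp

/-- `d * d / d = d`, also for `d = 0` -/
theorem cv1_self_div (d : ℝ) : d * d / d = d := by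
  by_cases hd : d = 0
  · rw [hd, zero_mul, zero_div]
  · rw [mul_div_assoc, div_self hd, mul_one]

/-- CV1: summing the one-step kernel of `j + 1` cards over the START position of the new card
gives the one-step kernel of the old cards. -/
theorem step_sum_start (h j : ℕ) [NeZero h] (v : Fin j → ZMod (2 * h))
    (y : Fin (j + 1) → ZMod (2 * h)) :
    ∑ q : ZMod (2 * h), Kmat h (j + 1) (Fin.cons q v : Fin (j + 1) → ZMod (2 * h)) y
      = Kmat h j v (Fin.tail y) := by
  have hf : ∀ (A B : Finset (ZMod h → Bool)), A = B →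
      (A.card : ℝ) / 2 ^ h = (B.card : ℝ) / 2 ^ h := fun A B e => by rw [e]
  have hcard : ∀ q : ZMod (2 * h),
      Kmat h (j + 1) (Fin.cons q v : Fin (j + 1) → ZMod (2 * h)) y
        = ((univ.filter fun c : ZMod h → Bool =>
            move h c q = y 0 ∧ ∀ i : Fin j, move h c (v i) = Fin.tail y i).card : ℝ) / 2 ^ h := by
    intro q
    rw [Kmat_apply_r, defs_aux_stepProb]
    apply hf
    apply Finset.filter_congr
    intro c _
    rw [Fin.forall_fin_succ]
    exact Iff.rfl
  rw [Kmat_apply_r, defs_aux_stepProb, Finset.sum_congr rfl (fun q _ => hcard q),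
    ← Finset.sum_div]
  congr 1
  rw [cv1_card_filter,
    Finset.sum_congr rfl (fun q _ => cv1_card_filter
      (fun c : ZMod h → Bool => move h c q = y 0 ∧ ∀ i : Fin j, move h c (v i) = Fin.tail y i)),
    Finset.sum_comm]
  apply Finset.sum_congr rfl
  intro c _
  obtain ⟨q₀, hq₀⟩ := (Finite.injective_iff_surjective.mp (H36.move_injective h c)) (y 0)
  by_cases hC : ∀ i : Fin j, move h c (v i) = Fin.tail y i
  · rw [if_pos hC]
    have hq : ∀ q : ZMod (2 * h),
        (if move h c q = y 0 ∧ ∀ i : Fin j, move h c (v i) = Fin.tail y i then (1 : ℝ) else 0)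
          = if q = q₀ then 1 else 0 := by
      intro q
      by_cases hqq : q = q₀
      · rw [if_pos hqq, if_pos ⟨by rw [hqq]; exact hq₀, hC⟩]
      · rw [if_neg hqq,
          if_neg (fun hh => hqq (H36.move_injective h c (hh.1.trans hq₀.symm)))]
    rw [Finset.sum_congr rfl (fun q _ => hq q), Finset.sum_ite_eq' univ q₀ (fun _ => (1 : ℝ)),
      if_pos (Finset.mem_univ _)]
  · rw [if_neg hC]
    apply Finset.sum_eq_zero
    intro q _
    rw [if_neg (fun hh => hC hh.2)]

/-- CV1: the two-walker kernel has nonnegative entries. -/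
theorem Qmat_nonneg (h j : ℕ) [NeZero h] (u y : Fin (j + 2) → ZMod (2 * h)) :
    0 ≤ Qmat h j u y := by
  rw [Qmat_apply]
  exact div_nonneg (mul_nonneg (H95.stepProb_nonneg h (j + 1) _ _)
    (H95.stepProb_nonneg h (j + 1) _ _)) (H95.stepProb_nonneg h j _ _)

/-- CV1: the rows of the two-walker kernel sum to one. -/
theorem Qmat_row_sum (h j : ℕ) [NeZero h] (u : Fin (j + 2) → ZMod (2 * h)) :
    ∑ y, Qmat h j u y = 1 := by
  have e1 : ∀ v1 : Fin j → ZMod (2 * h),
      ∑ q1 : ZMod (2 * h), Kmat h (j + 1) (dropTwo u) (Fin.cons q1 v1)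
        = Kmat h j (Fin.tail (Fin.tail u)) v1 := by
    intro v1
    rw [H43.step_tail h j (dropTwo u) v1, dropTwo_apply, Fin.tail_cons]
  have e2 : ∀ v1 : Fin j → ZMod (2 * h),
      ∑ q1' : ZMod (2 * h), Kmat h (j + 1) (Fin.tail u) (Fin.cons q1' v1)
        = Kmat h j (Fin.tail (Fin.tail u)) v1 := fun v1 => H43.step_tail h j (Fin.tail u) v1
  have hterm : ∀ (q1 q1' : ZMod (2 * h)) (v1 : Fin j → ZMod (2 * h)),
      Qmat h j u (Fin.cons q1 (Fin.cons q1' v1) : Fin (j + 2) → ZMod (2 * h))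
        = Kmat h (j + 1) (dropTwo u) (Fin.cons q1 v1)
          * Kmat h (j + 1) (Fin.tail u) (Fin.cons q1' v1)
          / Kmat h j (Fin.tail (Fin.tail u)) v1 := by
    intro q1 q1' v1
    rw [Qmat_apply, dropTwo_cons, tail_cons_cons, Fin.tail_cons]
  have hv : ∀ v1 : Fin j → ZMod (2 * h),
      ∑ q1 : ZMod (2 * h), ∑ q1' : ZMod (2 * h),
        Qmat h j u (Fin.cons q1 (Fin.cons q1' v1) : Fin (j + 2) → ZMod (2 * h))
        = Kmat h j (Fin.tail (Fin.tail u)) v1 := by
    intro v1
    have h1 : ∀ q1 : ZMod (2 * h), ∑ q1' : ZMod (2 * h),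
        Qmat h j u (Fin.cons q1 (Fin.cons q1' v1) : Fin (j + 2) → ZMod (2 * h))
        = Kmat h (j + 1) (dropTwo u) (Fin.cons q1 v1)
          * Kmat h j (Fin.tail (Fin.tail u)) v1 / Kmat h j (Fin.tail (Fin.tail u)) v1 := by
      intro q1
      rw [Finset.sum_congr rfl (fun q1' _ => hterm q1 q1' v1), ← Finset.sum_div,
        ← Finset.mul_sum, e2 v1]
    rw [Finset.sum_congr rfl (fun q1 _ => h1 q1), ← Finset.sum_div, ← Finset.sum_mul, e1 v1]
    exact cv1_self_div _
  rw [H23.sum_fin_succ_fun (j + 1) (fun y => Qmat h j u y)]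
  have h2 : ∀ q1 : ZMod (2 * h),
      ∑ y' : Fin (j + 1) → ZMod (2 * h), Qmat h j u (Fin.cons q1 y')
        = ∑ q1' : ZMod (2 * h), ∑ v1 : Fin j → ZMod (2 * h),
            Qmat h j u (Fin.cons q1 (Fin.cons q1' v1) : Fin (j + 2) → ZMod (2 * h)) := by
    intro q1
    exact H23.sum_fin_succ_fun j (fun y' => Qmat h j u (Fin.cons q1 y'))
  rw [Finset.sum_congr rfl (fun q1 _ => h2 q1)]
  have h3 : ∀ q1 : ZMod (2 * h),
      ∑ q1' : ZMod (2 * h), ∑ v1 : Fin j → ZMod (2 * h),
            Qmat h j u (Fin.cons q1 (Fin.cons q1' v1) : Fin (j + 2) → ZMod (2 * h))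
        = ∑ v1 : Fin j → ZMod (2 * h), ∑ q1' : ZMod (2 * h),
            Qmat h j u (Fin.cons q1 (Fin.cons q1' v1) : Fin (j + 2) → ZMod (2 * h)) :=
    fun q1 => Finset.sum_comm
  rw [Finset.sum_congr rfl (fun q1 _ => h3 q1), Finset.sum_comm,
    Finset.sum_congr rfl (fun v1 _ => hv v1)]
  exact H95.stepProb_sum h j (Fin.tail (Fin.tail u))

/-- CV1: powers of the two-walker kernel have nonnegative entries. -/
theorem Qpow_nonneg (h j : ℕ) [NeZero h] (t : ℕ) (u y : Fin (j + 2) → ZMod (2 * h)) :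
    0 ≤ (Qmat h j ^ t) u y :=
  H93.H93_pow_nonneg (Qmat h j) (Qmat_nonneg h j) t u y

/-- CV1: the rows of the powers of the two-walker kernel sum to one. -/
theorem Qpow_row_sum (h j : ℕ) [NeZero h] (t : ℕ) (u : Fin (j + 2) → ZMod (2 * h)) :
    ∑ y, (Qmat h j ^ t) u y = 1 :=
  H93.H93_pow_rowsum (Qmat h j) (Qmat_row_sum h j) t u

end Vale.Agent.Lib.P162.H93CV
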