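import Mathlib
import Vale.Agent.Lib.P162.Defs
import Vale.Agent.Lib.P162.RDefs
import Vale.Agent.Lib.P162.helper93.DefectBlockFinal
import Vale.Agent.Lib.P162.helper90.DefectContract
import Vale.Agent.Lib.P162.helper75.CommNew
import Vale.Agent.Lib.P162.helper43.LumpTail
import Vale.Agent.Lib.P162.helper47.TvStep
import Vale.Agent.Lib.P162.helper95.KmatBasic

/-!
Thorp shuffle, `k` tracked cards, every even `n = 2 h`: after `3 r L` shuffles
(`L = ⌈log₂ n⌉`, `r ≥ 1`) the joint law of the positions of the `k` cards is within total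
variation distance `(k / 2) (18 k L / n) ^ r` of the uniform law on placements of `k` distinct
cards. Assembly of the jobs R7 (`defect_block`), R8 (`defect_contract`) and R9 (`tv_step`).
-/

namespace Vale.Agent.Lib.P162.H93

open Finset BigOperators

/-- R8, hypothesis-free copy: the defect contracts -/
theorem H93r_defect_contract (h j : ℕ) [NeZero h] (s : ℕ) (η : ℝ)
    (hη : ∀ u : Fin (j + 1) → ZMod (2 * h), Function.Injective u → defect h j s u ≤ η)
    (z : Fin (j + 1) → ZMod (2 * h)) (hz : Function.Injective z) (t : ℕ) :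
    defect h j (t + s) z ≤ η * defect h j t z :=
  H90.defect_contract_of h j (fun s z v => H43.lump_tail h j s z v)
    (fun s w y => H75.comm_new h j s w y) s η hη z hz t

/-- `r + 1` blocks of `3 L` shuffles -/
theorem H93r_defect_blocks (h j : ℕ) [NeZero h] (r : ℕ) (z : Fin (j + 1) → ZMod (2 * h))
    (hz : Function.Injective z) :
    defect h j (3 * (r + 1) * Nat.clog 2 (2 * h)) z
      ≤ ((16 * (Nat.clog 2 (2 * h) : ℝ) * j + 1 + 2 * j) / (2 * h : ℝ)) ^ (r + 1) := by
  have hη0 : 0 ≤ (16 * (Nat.clog 2 (2 * h) : ℝ) * j + 1 + 2 * j) / (2 * h : ℝ) := by positivity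
  induction r with
  | zero =>
    rw [zero_add, mul_one, pow_one]
    exact defect_block h j z hz
  | succ r ih =>
    have hsplit : 3 * (r + 1 + 1) * Nat.clog 2 (2 * h)
        = 3 * (r + 1) * Nat.clog 2 (2 * h) + 3 * Nat.clog 2 (2 * h) := by ring
    rw [hsplit, pow_succ']
    exact le_trans (H93r_defect_contract h j (3 * Nat.clog 2 (2 * h)) _
      (fun u hu => defect_block h j u hu) z hz (3 * (r + 1) * Nat.clog 2 (2 * h)))
      (mul_le_mul_of_nonneg_left ih hη0)

/-- no cards: the two laws coincide -/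
theorem H93r_zero_cards (h : ℕ) [NeZero h] (T : ℕ) (x : Fin 0 → ZMod (2 * h)) :
    ∑ y, |(Kmat h 0 ^ T) x y - unifInj h 0 y| = 0 := by
  have hsum := H95.Kmat_pow_sum h 0 T x
  rw [Fintype.sum_subsingleton _ x] at hsum
  have hu : unifInj h 0 x = 1 := by
    rw [defs_aux_unifInj, if_pos (Function.injective_of_subsingleton x), Nat.descFactorial_zero,
      Nat.cast_one, div_one]
  rw [Fintype.sum_subsingleton _ x, hsum, hu, sub_self, abs_zero]

/-- the `l1` distance for `k` cards is at most the sum of the defects of the cards added one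
at a time -/
theorem H93r_l1_cards (h : ℕ) [NeZero h] (r : ℕ) : ∀ (k : ℕ) (x : Fin k → ZMod (2 * h)),
    Function.Injective x →
    ∑ y, |(Kmat h k ^ (3 * (r + 1) * Nat.clog 2 (2 * h))) x y - unifInj h k y|
      ≤ ∑ j ∈ range k,
          ((16 * (Nat.clog 2 (2 * h) : ℝ) * j + 1 + 2 * j) / (2 * h : ℝ)) ^ (r + 1) := by
  intro k
  induction k with
  | zero =>
    intro x _
    exact le_of_eq (by rw [H93r_zero_cards, Finset.range_zero, Finset.sum_empty])
  | succ j ih =>
    intro x hx
    rw [Finset.sum_range_succ]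
    have htail : Function.Injective (Fin.tail x) := hx.comp (Fin.succ_injective j)
    have h1 := H47.tv_step h j (3 * (r + 1) * Nat.clog 2 (2 * h)) x hx
    have h2 := H93r_defect_blocks h j r x hx
    have h3 := ih (Fin.tail x) htail
    exact le_trans h1 ((add_comm _ _).le.trans (add_le_add h3 h2))

/-- the numerical comparison of one defect with the final rate -/
theorem H93r_rate (L j k : ℕ) (hL : 1 ≤ L) (hjk : j < k) :
    16 * (L : ℝ) * j + 1 + 2 * j ≤ 18 * (k : ℝ) * L := by
  have hLr : (1 : ℝ) ≤ (L : ℝ) := by exact_mod_cast hL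
  have hjr : (j : ℝ) + 1 ≤ (k : ℝ) := by exact_mod_cast hjk
  have hj0 : (0 : ℝ) ≤ (j : ℝ) := Nat.cast_nonneg j
  nlinarith [mul_nonneg hj0 (sub_nonneg.mpr hLr),
    mul_le_mul_of_nonneg_left hjr (by linarith : (0 : ℝ) ≤ (L : ℝ))]

/-- **Theorem R.** Thorp shuffle of `n = 2 h` cards, `n` any even number, `L = ⌈log₂ n⌉`.
After `3 r L` shuffles (`r ≥ 1`) the joint law of the positions of `k` tracked cards started at
distinct positions is within total variation distance `(k / 2) (18 k L / n) ^ r` of the uniform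
law on placements of `k` distinct cards. -/
theorem thorp_R (h k r : ℕ) [NeZero h] (hr : 1 ≤ r) (x : Fin k → ZMod (2 * h))
    (hx : Function.Injective x) :
    (1 / 2 : ℝ) * ∑ y, |(Kmat h k ^ (3 * r * Nat.clog 2 (2 * h))) x y - unifInj h k y|
      ≤ ((k : ℝ) / 2) * (18 * (k : ℝ) * (Nat.clog 2 (2 * h) : ℝ) / (2 * (h : ℝ))) ^ r := by
  obtain ⟨r', rfl⟩ : ∃ r', r = r' + 1 := ⟨r - 1, by omega⟩
  have hpos : 0 < h := NeZero.pos h
  have hL1 : 1 ≤ Nat.clog 2 (2 * h) := Nat.clog_pos (by norm_num) (by omega)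
  have hmain := H93r_l1_cards h r' k x hx
  have hterm : ∀ j ∈ range k,
      ((16 * (Nat.clog 2 (2 * h) : ℝ) * j + 1 + 2 * j) / (2 * h : ℝ)) ^ (r' + 1)
        ≤ (18 * (k : ℝ) * (Nat.clog 2 (2 * h) : ℝ) / (2 * (h : ℝ))) ^ (r' + 1) := by
    intro j hj
    have hjk : j < k := Finset.mem_range.mp hj
    apply pow_le_pow_left₀ (by positivity)
    apply div_le_div_of_nonneg_right _ (by positivity)
    exact H93r_rate _ j k hL1 hjk
  have hsum := Finset.sum_le_sum hterm
  rw [Finset.sum_const, Finset.card_range, nsmul_eq_mul] at hsum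
  have hle := le_trans hmain hsum
  calc (1 / 2 : ℝ) * ∑ y, |(Kmat h k ^ (3 * (r' + 1) * Nat.clog 2 (2 * h))) x y - unifInj h k y|
      ≤ (1 / 2 : ℝ) * ((k : ℝ)
          * (18 * (k : ℝ) * (Nat.clog 2 (2 * h) : ℝ) / (2 * (h : ℝ))) ^ (r' + 1)) :=
        mul_le_mul_of_nonneg_left hle (by norm_num)
    _ = ((k : ℝ) / 2)
          * (18 * (k : ℝ) * (Nat.clog 2 (2 * h) : ℝ) / (2 * (h : ℝ))) ^ (r' + 1) := by ring

end Vale.Agent.Lib.P162.H93
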