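import Mathlib
import Vale.Agent.Lib.P162.Defs
import Vale.Agent.Lib.P162.Law
import Vale.Agent.Lib.P162.helper93.Assembly
import Vale.Agent.Lib.P162.helper47.LawEqPow

namespace Vale.Agent.Lib.P162.H93

open Finset BigOperators

/-- The assembly in terms of the explicit law `trackedLaw` of `Law.lean`: after `3 L` Thorp
shuffles of `2 h` cards, `L = ⌈log₂ (2 h)⌉`, the joint law of the positions of the `k` cards that
start in the distinct positions `x 0, …, x (k - 1)` is within total variation distance
`9 k² L / (2 h)` of the uniform law on placements of `k` distinct cards. -/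
theorem tracked_mixing (h k : ℕ) [NeZero h] (x : Fin k → ZMod (2 * h))
    (hx : Function.Injective x) :
    (1 / 2 : ℝ) * ∑ y, |trackedLaw h k (3 * Nat.clog 2 (2 * h)) x y - unifInj h k y|
      ≤ 9 * (k : ℝ) ^ 2 * (Nat.clog 2 (2 * h) : ℝ) / (2 * h : ℝ) := by
  simp only [H47.law_eq_pow]
  exact kcard_mixing h k x hx

end Vale.Agent.Lib.P162.H93
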