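import Mathlib
import Vale.Agent.Lib.P162.Defs
import Vale.Agent.Lib.P162.Law
import Vale.Agent.Lib.P162.helper93.TheoremR
import Vale.Agent.Lib.P162.helper57.Final
import Vale.Agent.Lib.P162.helper6.LawEqPow
import Vale.Agent.Lib.P162.helper52.UnifStationary
import Vale.Agent.Lib.P162.helper95.KmatBasic

/-!
Thorp shuffle, `k` tracked cards, every even `n = 2 h`, `L = ⌈log₂ n⌉`, `r ≥ 1`: for EVERY
`T ≥ 3 r L` the joint law `trackedLaw h k T x` of the positions of the `k` cards after `T`
shuffles is within total variation distance `(k / 2) (18 k L / n) ^ r` of the uniform law on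
placements of `k` distinct cards.
-/

namespace Vale.Agent.Lib.P162.H93

open Finset BigOperators

/-- Theorem R for the explicit law of the tracked cards and every `T ≥ 3 r L`. -/
theorem tracked_R (h k r : ℕ) [NeZero h] (hr : 1 ≤ r) (x : Fin k → ZMod (2 * h))
    (hx : Function.Injective x) (T : ℕ) (hT : 3 * r * Nat.clog 2 (2 * h) ≤ T) :
    (1 / 2 : ℝ) * ∑ y, |trackedLaw h k T x y - unifInj h k y|
      ≤ ((k : ℝ) / 2) * (18 * (k : ℝ) * (Nat.clog 2 (2 * h) : ℝ) / (2 * (h : ℝ))) ^ r := by
  obtain ⟨t, rfl⟩ := Nat.exists_eq_add_of_le hT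
  have h1 : ∑ y, |trackedLaw h k (3 * r * Nat.clog 2 (2 * h) + t) x y - unifInj h k y|
      ≤ ∑ y, |(Kmat h k ^ (3 * r * Nat.clog 2 (2 * h))) x y - unifInj h k y| := by
    have e : ∀ y, |trackedLaw h k (3 * r * Nat.clog 2 (2 * h) + t) x y - unifInj h k y|
        = |(Kmat h k ^ (3 * r * Nat.clog 2 (2 * h) + t)) x y - unifInj h k y| := by
      intro y
      rw [H6.law_eq_pow h k _ x y]
    refine le_trans (le_of_eq (Finset.sum_congr rfl (fun y _ => e y))) ?_
    exact H57.tv_mono (Kmat h k) (fun z y => H95.stepProb_nonneg h k z y)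
      (fun z => H95.stepProb_sum h k z) (unifInj h k) (H52.unif_stationary h k) x _ t
  exact le_trans (mul_le_mul_of_nonneg_left h1 (by norm_num)) (thorp_R h k r hr x hx)

end Vale.Agent.Lib.P162.H93
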